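import Vale.Agent.P284.H378.CS
import Vale.Agent.P284.H625.N.SumS

/-!
# P284 (helper619), program N, module N6, P5: twisting of a leaf chart

`γ` acts on `E` with `F (γ • y) = A (F y) + a`. A leaf chart of `v` at `γ • y` gives a leaf chart of
`y ↦ v (γ • y)` at `y`.
-/

open scoped Manifold ContDiff Topology InnerProductSpace ComplexConjugate
open Filter Set Metric

noncomputable section

namespace Vale.Agent.P284.H619.N6

open Vale.Agent.P272.K Vale.Agent.P284.H894 Vale.Agent.P284.H894.G Vale.Agent.P284.H894.V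
  Vale.Agent.P284.H894.W Vale.Agent.P284.H573 Vale.Agent.P284.H213.Grp Vale.Agent.P284.H395
  Vale.Agent.P284.H619 Vale.Agent.P284.H625 Vale.Agent.P284.H378

/-! ### linear algebra -/

section lin
variable {q r : ℕ}

/-- `tq` as a linear map -/
def tqL (q r : ℕ) : Cm (q + r) →L[ℂ] Cm q :=
  ContinuousLinearMap.pi fun j => ContinuousLinearMap.proj (R := ℂ)
    (φ := fun _ : Fin (q + r) => ℂ) (Fin.castAdd r j)

theorem tqL_apply (x : Cm (q + r)) : tqL q r x = tq x := rfl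

theorem tq_add (x y : Cm (q + r)) : tq (x + y) = tq x + tq y := rfl

theorem tq_sub (x y : Cm (q + r)) : tq (x - y) = tq x - tq y := rfl

/-- `(A (tq x), rest)` -/
def TL (r : ℕ) (A : Cm q →L[ℂ] Cm q) : Cm (q + r) →L[ℂ] Cm (q + r) :=
  ContinuousLinearMap.pi (Fin.addCases
    (fun j => (ContinuousLinearMap.proj (R := ℂ) (φ := fun _ : Fin q => ℂ) j).comp
      (A.comp (tqL q r)))
    (fun i => ContinuousLinearMap.proj (R := ℂ) (φ := fun _ : Fin (q + r) => ℂ) (Fin.natAdd q i)))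

theorem TL_cast (A : Cm q →L[ℂ] Cm q) (x : Cm (q + r)) (j : Fin q) :
    TL r A x (Fin.castAdd r j) = A (tq x) j := by
  unfold TL
  rw [ContinuousLinearMap.pi_apply, Fin.addCases_left]
  rfl

theorem TL_nat (A : Cm q →L[ℂ] Cm q) (x : Cm (q + r)) (i : Fin r) :
    TL r A x (Fin.natAdd q i) = x (Fin.natAdd q i) := by
  unfold TL
  rw [ContinuousLinearMap.pi_apply, Fin.addCases_right]
  rfl

theorem tq_TL (A : Cm q →L[ℂ] Cm q) (x : Cm (q + r)) : tq (TL r A x) = A (tq x) := by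
  funext j
  exact TL_cast A x j

theorem ext_qr {x y : Cm (q + r)} (h1 : tq x = tq y)
    (h2 : ∀ i : Fin r, x (Fin.natAdd q i) = y (Fin.natAdd q i)) : x = y := by
  funext j
  refine Fin.addCases (fun j => ?_) (fun i => h2 i) j
  exact congrFun h1 j

theorem TL_TL (A B : Cm q →L[ℂ] Cm q) (h : ∀ u, A (B u) = u) (x : Cm (q + r)) :
    TL r A (TL r B x) = x := by
  refine ext_qr ?_ fun i => ?_
  · rw [tq_TL, tq_TL, h]
  · rw [TL_nat, TL_nat]

/-- `(a, 0)` -/
def iq (r : ℕ) (a : Cm q) : Cm (q + r) := Fin.addCases a fun _ => 0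

theorem tq_iq (a : Cm q) : tq (iq r a) = a := by
  funext j
  show iq r a (Fin.castAdd r j) = a j
  unfold iq
  exact Fin.addCases_left j

end lin

/-- the affine map `x ↦ (A (tq x) + a, rest)` -/
def Tf {q : ℕ} (r : ℕ) (A : Cm q ≃ₗ[ℂ] Cm q) (a : Cm q) (x : Cm (q + r)) : Cm (q + r) :=
  TL r (A.toContinuousLinearEquiv : Cm q →L[ℂ] Cm q) x + iq r a

/-- the inverse of `Tf` -/
def Ti {q : ℕ} (r : ℕ) (A : Cm q ≃ₗ[ℂ] Cm q) (a : Cm q) (x : Cm (q + r)) : Cm (q + r) :=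
  TL r (A.symm.toContinuousLinearEquiv : Cm q →L[ℂ] Cm q) (x - iq r a)

section aff
variable {q r : ℕ} (A : Cm q ≃ₗ[ℂ] Cm q) (a : Cm q)

theorem Tf_Ti (x : Cm (q + r)) : Tf r A a (Ti r A a x) = x := by
  unfold Tf Ti
  rw [TL_TL _ _ fun u => A.apply_symm_apply u, sub_add_cancel]

theorem Ti_Tf (x : Cm (q + r)) : Ti r A a (Tf r A a x) = x := by
  unfold Tf Ti
  rw [add_sub_cancel_right, TL_TL _ _ fun u => A.symm_apply_apply u]

theorem tq_Tf (x : Cm (q + r)) : tq (Tf r A a x) = A (tq x) + a := by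
  unfold Tf
  rw [tq_add, tq_TL, tq_iq]
  rfl

theorem tq_Ti (x : Cm (q + r)) : tq (Ti r A a x) = A.symm (tq x - a) := by
  unfold Ti
  rw [tq_TL, tq_sub, tq_iq]
  rfl

/-- the linear part -/
def lf (r : ℕ) (A : Cm q ≃ₗ[ℂ] Cm q) : Cm (q + r) →L[ℂ] Cm (q + r) :=
  TL r (A.toContinuousLinearEquiv : Cm q →L[ℂ] Cm q)

/-- the linear part of the inverse -/
def li (r : ℕ) (A : Cm q ≃ₗ[ℂ] Cm q) : Cm (q + r) →L[ℂ] Cm (q + r) :=
  TL r (A.symm.toContinuousLinearEquiv : Cm q →L[ℂ] Cm q)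

theorem lf_li (x : Cm (q + r)) : lf r A (li r A x) = x :=
  TL_TL _ _ (fun u => A.apply_symm_apply u) x

theorem li_lf (x : Cm (q + r)) : li r A (lf r A x) = x :=
  TL_TL _ _ (fun u => A.symm_apply_apply u) x

theorem tq_lf (x : Cm (q + r)) : tq (lf r A x) = A (tq x) := tq_TL _ x

theorem tq_li (x : Cm (q + r)) : tq (li r A x) = A.symm (tq x) := tq_TL _ x

theorem Tf_an (x : Cm (q + r)) : AnalyticAt ℂ (Tf r A a) x :=
  ((lf r A).analyticAt x).add analyticAt_const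

theorem Ti_an (x : Cm (q + r)) : AnalyticAt ℂ (Ti r A a) x :=
  ((li r A).analyticAt _).comp (analyticAt_id.sub analyticAt_const)

theorem Tf_fd (x : Cm (q + r)) : HasFDerivAt (Tf r A a) (lf r A) x :=
  (lf r A).hasFDerivAt.add_const _

theorem Ti_fd (x : Cm (q + r)) : HasFDerivAt (Ti r A a) (li r A) x :=
  (li r A).hasFDerivAt.comp x ((hasFDerivAt_id x).sub_const _)

end aff

section
variable {n q r k s m : ℕ} {X E Γ W H : Type} [TopologicalSpace X] [ChartedSpace (Cm n) X]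
  [TopologicalSpace E] [Group Γ] [MulAction Γ E]
  [NormedAddCommGroup W] [InnerProductSpace ℂ W] [NormedAddCommGroup H] [InnerProductSpace ℂ H]
  {p : E → X} {F : E → Cm q}

omit [TopologicalSpace X] [ChartedSpace (Cm n) X] in
/-- the vertical vectors at `γ • y` -/
theorem VS_tw {X : Type} [TopologicalSpace X] {p : E → X} {γ : Γ}
    (hc : Continuous fun y : E => γ • y) (hci : Continuous fun y : E => γ⁻¹ • y)
    (hp : ∀ y : E, p (γ • y) = p y) {A : Cm q ≃ₗ[ℂ] Cm q} {a : Cm q}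
    (hA : ∀ y, F (γ • y) = A (F y) + a) (y : E) (e : Chart n X) :
    VS p F (γ • y) e = VS p F y e := by
  have hpi : ∀ y : E, p (γ⁻¹ • y) = p y := fun y => by
    rw [← hp (γ⁻¹ • y), smul_inv_smul]
  have hfd : ∀ (B : Cm q ≃ₗ[ℂ] Cm q) (d : Cm q) (f : Cm n → Cm q) (z ξ : Cm n),
      fderiv ℂ (fun z => B (f z) + d) z ξ = B (fderiv ℂ f z ξ) := by
    intro B d f z ξ
    rw [fderiv_add_const]
    have h1 := (B.toContinuousLinearEquiv).comp_fderiv (f := f) (x := z)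
    have h2 := congrArg (fun L : Cm n →L[ℂ] Cm q => L ξ) h1
    exact h2
  ext ξ
  show (∀ f : Cm n → Cm q, _ → _) ↔ (∀ f : Cm n → Cm q, _ → _)
  constructor
  · intro h f hf
    have h1 : ∀ᶠ y' in 𝓝 (γ • y), F y' = A (f (e (p y'))) + a := by
      have h2 : Tendsto (fun y' : E => γ⁻¹ • y') (𝓝 (γ • y)) (𝓝 y) := by
        have := hci.tendsto (γ • y)
        rwa [inv_smul_smul] at this
      filter_upwards [h2.eventually hf] with y' h3
      rw [hpi] at h3
      rw [← h3, ← hA, smul_inv_smul]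
    have h4 := h (fun z => A (f z) + a) h1
    rw [hfd, hp] at h4
    exact A.map_eq_zero_iff.1 h4
  · intro h f hf
    have h1 : ∀ᶠ y' in 𝓝 y, F y' = A.symm (f (e (p y'))) + -A.symm a := by
      filter_upwards [hc.tendsto y |>.eventually hf] with y' h3
      rw [hA, hp] at h3
      rw [← h3, map_add, A.symm_apply_apply, add_neg_cancel_right]
    have h4 := h (fun z => A.symm (f z) + -A.symm a) h1
    rw [hfd] at h4
    rw [hp]
    exact A.symm.map_eq_zero_iff.1 h4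

variable {G : Subgroup Γ} [G.Normal] {U : G → (H →ₗᵢ[ℂ] H)} {πt : Γ →* (W ≃ₗᵢ[ℂ] W)}
  {Θ : E → Chart n X → (Cm n →L[ℂ] W)} {v : E → Chart n X → (Fin (q + r) → Cm n) → H}
  {N : Cm k →L[ℂ] Cm q} {γ : Γ} {A : Cm q ≃ₗ[ℂ] Cm q} {a : Cm q} {y : E} {e : Chart n X}
  {b : Cm n → Cm (q + r)} {F0 : Cm (q + r) → W} {β : Cm (q + r) → Cm s} {κ : Cm s → H}
  {τ : Cm s → Cm q}

/-- the linear part as an equivalence -/
def lfE (r : ℕ) (A : Cm q ≃ₗ[ℂ] Cm q) : Cm (q + r) ≃L[ℂ] Cm (q + r) :=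
  ContinuousLinearEquiv.equivOfInverse (lf r A) (li r A) (li_lf A) (lf_li A)

theorem fd_T (A : Cm q ≃ₗ[ℂ] Cm q) (a : Cm q) (f : Cm (q + r) → W) (x : Cm (q + r)) :
    fderiv ℂ (fun x => f (Tf r A a x)) x = (fderiv ℂ f (Tf r A a x)).comp (lf r A) := by
  have h1 := (lfE r A).comp_right_fderiv (f := fun u => f (u + iq r a)) (x := x)
  rw [fderiv_comp_add_right] at h1
  exact h1

/-- the determinant of the linear part -/
def dT {q : ℕ} (r : ℕ) (A : Cm q ≃ₗ[ℂ] Cm q) : ℂ :=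
  LinearMap.det (lf r A : Cm (q + r) →ₗ[ℂ] Cm (q + r))

theorem dT_ne (A : Cm q ≃ₗ[ℂ] Cm q) : dT r A ≠ 0 := by
  intro h
  have h1 : (lf r A : Cm (q + r) →ₗ[ℂ] Cm (q + r)) ∘ₗ (li r A : Cm (q + r) →ₗ[ℂ] Cm (q + r)) =
      LinearMap.id := LinearMap.ext fun x => lf_li A x
  have h2 := congrArg LinearMap.det h1
  rw [LinearMap.det_comp, LinearMap.det_id] at h2
  have h3 : LinearMap.det (lf r A : Cm (q + r) →ₗ[ℂ] Cm (q + r)) = 0 := h
  rw [h3, zero_mul] at h2
  exact zero_ne_one h2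

theorem det_lf (A : Cm q ≃ₗ[ℂ] Cm q) (M : Matrix (Fin (q + r)) (Fin (q + r)) ℂ) :
    M.det = dT r A * (Matrix.of fun i j => li r A (fun l => M l j) i).det := by
  have h1 : M = LinearMap.toMatrix' (lf r A : Cm (q + r) →ₗ[ℂ] Cm (q + r)) *
      (Matrix.of fun i j => li r A (fun l => M l j) i) := by
    ext i j
    have h2 : lf r A (li r A fun l => M l j) i = M i j := by rw [lf_li]
    rw [← h2]
    have h3 := LinearMap.toMatrix'_mulVec (lf r A : Cm (q + r) →ₗ[ℂ] Cm (q + r))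
      (li r A fun l => M l j)
    exact (congrFun h3 i).symm
  conv_lhs => rw [h1]
  rw [Matrix.det_mul, LinearMap.det_toMatrix']
  rfl

/-- **P5**: a leaf chart of `v` at `γ • y` gives a leaf chart of `v (γ • ·)` at `y`. -/
theorem lc_twist (hpc : Continuous p) (hc : Continuous fun y : E => γ • y)
    (hci : Continuous fun y : E => γ⁻¹ • y)
    (hp : ∀ y : E, p (γ • y) = p y) (hA : ∀ y, F (γ • y) = A (F y) + a)
    (hΘ : ∀ᶠ y' in 𝓝 y, ∀ ξ ∈ VS p F y' e, Θ (γ • y') e ξ = πt γ (Θ y' e ξ))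
    (h : LC p F m v U (πt.comp G.subtype) Θ N (γ • y) e b F0 β κ τ) :
    LC p F m (fun y => v (γ • y)) (fun g => U (MulAut.conjNormal γ g)) (πt.comp G.subtype) Θ
      ((A.symm.toContinuousLinearEquiv : Cm q →L[ℂ] Cm q).comp N) y e
      (fun z => Ti r A a (b z)) (fun x => (πt γ).symm (F0 (Tf r A a x)))
      (fun x => β (Tf r A a x)) (fun x => (dT r A) ^ m • κ x)
      (fun x => A.symm (τ x - a)) := by
  have hpy : p (γ • y) = p y := hp y
  have ht : Tendsto (fun y' : E => γ • y') (𝓝 y) (𝓝 (γ • y)) := hc.tendsto y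
  obtain ⟨mem, ban, bsurj, t_eq, F0an, pot, F0imm, βan, βsurj, trans, γan, imm, v_eq, τan, leaf,
    ρ, hρ, sheet⟩ := h
  rw [hpy] at mem ban bsurj F0an F0imm βan βsurj trans γan imm τan leaf sheet
  set z₀ := e (p y) with hz₀
  have hTb : Tf r A a (Ti r A a (b z₀)) = b z₀ := Tf_Ti A a _
  have hep : Tendsto (fun y' => e (p y')) (𝓝 y) (𝓝 z₀) :=
    (e.continuousAt mem.2).tendsto.comp (hpc.tendsto y)
  have hbfd : ∀ z, DifferentiableAt ℂ b z →
      fderiv ℂ (fun z => Ti r A a (b z)) z = (li r A).comp (fderiv ℂ b z) := fun z hz =>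
    ((Ti_fd A a (b z)).comp z hz.hasFDerivAt).fderiv
  have hban : ∀ᶠ y' in 𝓝 y, AnalyticAt ℂ b (e (p y')) :=
    hep.eventually ban.eventually_analyticAt
  -- the linear isometry `(πt γ).symm`
  have hcomp : ∀ (f : Cm n → W) (z ξ : Cm n),
      fderiv ℂ (fun z => (πt γ).symm (f z)) z ξ = (πt γ).symm (fderiv ℂ f z ξ) := by
    intro f z ξ
    have h1 := ((πt γ).symm.toContinuousLinearEquiv).comp_fderiv (f := f) (x := z)
    exact congrArg (fun L : Cm n →L[ℂ] W => L ξ) h1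
  have hcomp' : ∀ (f : Cm (q + r) → W) (z ξ : Cm (q + r)),
      fderiv ℂ (fun z => (πt γ).symm (f z)) z ξ = (πt γ).symm (fderiv ℂ f z ξ) := by
    intro f z ξ
    have h1 := ((πt γ).symm.toContinuousLinearEquiv).comp_fderiv (f := f) (x := z)
    exact congrArg (fun L : Cm (q + r) →L[ℂ] W => L ξ) h1
  have hsan : ∀ w : W, AnalyticAt ℂ (fun w => (πt γ).symm w) w := fun w =>
    ((πt γ).symm.toContinuousLinearEquiv : W →L[ℂ] W).analyticAt w
  have hF0T : AnalyticAt ℂ (fun x => F0 (Tf r A a x)) (Ti r A a (b z₀)) :=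
    AnalyticAt.fun_comp (g := F0) (f := Tf r A a) (by rw [hTb]; exact F0an) (Tf_an A a _)
  have hF0fd : fderiv ℂ (fun x => F0 (Tf r A a x)) (Ti r A a (b z₀)) =
      (fderiv ℂ F0 (b z₀)).comp (lf r A) := by
    have h1 : HasFDerivAt F0 (fderiv ℂ F0 (b z₀)) (Tf r A a (Ti r A a (b z₀))) := by
      rw [hTb]
      exact F0an.differentiableAt.hasFDerivAt
    exact (h1.comp _ (Tf_fd A a _)).fderiv
  have hβT : AnalyticAt ℂ (fun x => β (Tf r A a x)) (Ti r A a (b z₀)) :=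
    AnalyticAt.fun_comp (g := β) (f := Tf r A a) (by rw [hTb]; exact βan) (Tf_an A a _)
  have hβfd : fderiv ℂ (fun x => β (Tf r A a x)) (Ti r A a (b z₀)) =
      (fderiv ℂ β (b z₀)).comp (lf r A) := by
    have h1 : HasFDerivAt β (fderiv ℂ β (b z₀)) (Tf r A a (Ti r A a (b z₀))) := by
      rw [hTb]
      exact βan.differentiableAt.hasFDerivAt
    exact (h1.comp _ (Tf_fd A a _)).fderiv
  have hTt : Tendsto (Tf r A a) (𝓝 (Ti r A a (b z₀))) (𝓝 (b z₀)) := by
    have h1 := (Tf_an A a (Ti r A a (b z₀))).continuousAt.tendsto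
    rwa [hTb] at h1
  refine ⟨mem, ?_, ?_, ?_, ?_, ?_, ?_, ?_, ?_, ?_, ?_, ?_, ?_, ?_, ?_, ?_⟩
  · exact AnalyticAt.fun_comp (g := Ti r A a) (f := b) (Ti_an A a _) ban
  · rw [hbfd _ ban.differentiableAt]
    intro x
    obtain ⟨ξ, hξ⟩ := bsurj (lf r A x)
    exact ⟨ξ, by rw [ContinuousLinearMap.comp_apply, hξ, li_lf]⟩
  · filter_upwards [ht.eventually t_eq] with y' h1
    rw [hA, hp] at h1
    rw [tq_Ti, ← h1, add_sub_cancel_right, A.symm_apply_apply]
  · exact AnalyticAt.fun_comp (g := fun w => (πt γ).symm w) (f := fun x => F0 (Tf r A a x))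
      (hsan _) hF0T
  · filter_upwards [ht.eventually pot, hΘ] with y' h1 h2 ξ hξ
    have h3 : ξ ∈ VS p F (γ • y') e := by rw [VS_tw hc hci hp hA]; exact hξ
    have h4 := h1 ξ h3
    rw [h2 ξ hξ, hp] at h4
    have h5 : (fun z => (πt γ).symm (F0 (Tf r A a (Ti r A a (b z))))) =
        fun z => (πt γ).symm (F0 (b z)) := by
      funext z
      rw [Tf_Ti]
    rw [h5, hcomp (fun z => F0 (b z)), ← h4, LinearIsometryEquiv.symm_apply_apply]
  · intro ζ hζ h1
    rw [hcomp' (fun x => F0 (Tf r A a x)), hF0fd, ContinuousLinearMap.comp_apply] at h1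
    have h2 : fderiv ℂ F0 (b z₀) (lf r A ζ) = 0 := (πt γ).symm.map_eq_zero_iff.1 h1
    have h3 := F0imm (lf r A ζ) (by rw [tq_lf, hζ, map_zero]) h2
    rw [← li_lf A ζ, h3, map_zero]
  · exact hβT
  · rw [hβfd]
    intro x
    obtain ⟨ζ, hζ⟩ := βsurj x
    exact ⟨li r A ζ, by rw [ContinuousLinearMap.comp_apply, lf_li, hζ]⟩
  · intro ζ hζ h1
    rw [hβfd, ContinuousLinearMap.comp_apply] at h1
    have h3 := trans (lf r A ζ) (by rw [tq_lf, hζ, map_zero]) h1
    rw [← li_lf A ζ, h3, map_zero]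
  · show AnalyticAt ℂ (fun x => (dT r A) ^ m • κ x) (β (Tf r A a (Ti r A a (b z₀))))
    rw [hTb]
    exact γan.fun_const_smul
  · show ImmAt (fun x => (dT r A) ^ m • κ x) (β (Tf r A a (Ti r A a (b z₀))))
    rw [hTb]
    have hd : (dT r A) ^ m ≠ 0 := pow_ne_zero m (dT_ne A)
    refine ⟨smul_ne_zero hd imm.1, fun η c h1 => imm.2 η c ?_⟩
    have h2 : fderiv ℂ (fun x => (dT r A) ^ m • κ x) (β (b z₀)) =
        (dT r A) ^ m • fderiv ℂ κ (β (b z₀)) := fderiv_fun_const_smul γan.differentiableAt _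
    rw [h2, _root_.smul_apply, smul_comm c] at h1
    exact smul_right_injective H hd h1
  · filter_upwards [ht.eventually v_eq, hban] with y' h1 h2 ξ
    show v (γ • y') e ξ = _
    rw [h1 ξ, hp, Tf_Ti, smul_smul, ← mul_pow]
    congr 2
    rw [hbfd _ h2.differentiableAt, mul_comm, det_lf A]
    rfl
  · show AnalyticAt ℂ (fun x => A.symm (τ x - a)) (β (Tf r A a (Ti r A a (b z₀))))
    rw [hTb]
    exact AnalyticAt.fun_comp (g := fun u => A.symm u) (f := fun x => τ x - a)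
      ((A.symm.toContinuousLinearEquiv : Cm q →L[ℂ] Cm q).analyticAt _)
      (τan.fun_sub analyticAt_const)
  · filter_upwards [hTt.eventually leaf] with x h1
    rw [tq_Tf] at h1
    obtain ⟨w, hw⟩ := h1
    refine ⟨w, ?_⟩
    show A.symm (N w) = _
    have h2 : N w = A (tq x) + a - τ (β (Tf r A a x)) := hw
    rw [h2, map_sub, map_add, A.symm_apply_apply, map_sub]
    abel
  · -- sheets
    obtain ⟨ρ', hρ', hball⟩ := Metric.mem_nhds_iff.1 (hTt (ball_mem_nhds (b z₀) hρ))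
    refine ⟨ρ', hρ', fun g x₁ hx₁ ψ hψ hψx hc1 hs => ?_⟩
    have hx₁' : Tf r A a x₁ ∈ ball (b z₀) ρ := hball hx₁
    have hψx' : Tf r A a (ψ x₁) ∈ ball (b z₀) ρ := hball hψx
    have hTi1 : Ti r A a (Tf r A a x₁) = x₁ := Ti_Tf A a x₁
    have hψan : AnalyticAt ℂ (fun x => Tf r A a (ψ (Ti r A a x))) (Tf r A a x₁) := by
      refine AnalyticAt.fun_comp (g := Tf r A a) (f := fun x => ψ (Ti r A a x)) (Tf_an A a _) ?_
      refine AnalyticAt.fun_comp (g := ψ) (f := Ti r A a) ?_ (Ti_an A a _)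
      rw [hTi1]
      exact hψ
    have hTit : Tendsto (Ti r A a) (𝓝 (Tf r A a x₁)) (𝓝 x₁) := by
      have h1 := (Ti_an A a (Tf r A a x₁)).continuousAt.tendsto
      rwa [hTi1] at h1
    obtain ⟨cc, hcc⟩ := hc1
    have h1 := sheet (MulAut.conjNormal γ g) (Tf r A a x₁) hx₁'
      (fun x => Tf r A a (ψ (Ti r A a x))) hψan (by rw [hTi1]; exact hψx')
      ⟨A cc, by
        filter_upwards [hTit.eventually hcc] with x h2
        rw [tq_Tf, h2, tq_Ti, map_add, A.apply_symm_apply]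
        abel⟩
      (by
        filter_upwards [hTit.eventually hs] with x h2
        obtain ⟨a', ha'⟩ := h2
        refine ⟨a', ?_⟩
        have hd : (dT r A) ^ m ≠ 0 := pow_ne_zero m (dT_ne A)
        rw [Tf_Ti, map_smul, smul_comm a'] at ha'
        exact smul_right_injective H hd ha')
    have hTt1 : Tendsto (Tf r A a) (𝓝 x₁) (𝓝 (Tf r A a x₁)) :=
      (Tf_an A a x₁).continuousAt.tendsto
    filter_upwards [hTt1.eventually h1] with x h2 ζ hζ
    have h3 := h2 (lf r A ζ) (by rw [tq_lf, hζ, map_zero])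
    have h4 : (fun x => F0 (Tf r A a (ψ x))) =
        fun x => (fun x => F0 (Tf r A a (ψ (Ti r A a x)))) (Tf r A a x) := by
      funext x
      show _ = F0 (Tf r A a (ψ (Ti r A a (Tf r A a x))))
      rw [Ti_Tf]
    rw [hcomp' (fun x => F0 (Tf r A a (ψ x))), hcomp' (fun x => F0 (Tf r A a x)), h4,
      fd_T A a (fun x => F0 (Tf r A a (ψ (Ti r A a x)))) x, fd_T A a F0 x,
      ContinuousLinearMap.comp_apply, ContinuousLinearMap.comp_apply, h3]
    have h5 : ∀ w : W, (πt γ).symm w = πt γ⁻¹ w := by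
      intro w
      rw [map_inv]
      rfl
    have h6 : ((πt.comp G.subtype) (MulAut.conjNormal γ g)) = πt (γ * g * γ⁻¹) := by
      show πt ((MulAut.conjNormal γ g : G) : Γ) = _
      rw [MulAut.conjNormal_apply]
    have h7 : ∀ (g₁ g₂ : Γ) (w : W), πt g₁ (πt g₂ w) = πt (g₁ * g₂) w := fun g₁ g₂ w => by
      rw [map_mul]
      rfl
    rw [h5, h5, h6, h7]
    show _ = πt (g : Γ) _
    rw [h7]
    congr 2
    group

end

end Vale.Agent.P284.H619.N6
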